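import Vale.Agent.P254.Bdl.B19

open MeasureTheory Set Matrix Vale.Agent.P254

/-- Near-sharp slicing for every convex body in every dimension: the strong isotropic constant
conjecture `L_K ≤ L_Δ` holds up to the explicit factor `exp (0.19 (n+1)/n)`, and
`L_K ≤ exp (-0.81) < 0.445` in every dimension. -/
theorem Vale.Agent.Results.P254.AllBodies.result (n : ℕ) (hn : 1 ≤ n) (K S : Set (Fin n → ℝ))
    (hK : IsConvexBody K) (hS : IsSimplex S) :
    isoConst K ≤ Real.exp (19 / 100 * (((n : ℝ) + 1) / n)) * isoConst S ∧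
      isoConst K ≤ Real.exp (-(81 / 100)) :=
  Vale.Agent.P254.X.Chain.final_all hn hK hS
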