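import Vale.Agent.P254.CC.Defs
import Vale.Agent.P254.CC.Main

open MeasureTheory Set Matrix Vale.Agent.P254.CC

/-- The strong isotropic constant conjecture, with its equality case, for the smallest class `Cls`
of convex bodies (in all dimensions) which contains all convex bodies filling a suitable part of an
unconditional body, of a body with many hyperplane symmetries, of a unit ball of a subspace of
`L₁`, of an ellipsoid, of a cube or of a simplex (up to affine maps), all polytopes with at most
`n + 2` vertices, all bodies with enough reflections and all bodies between `T ∩ E` and `T ∪ E`
(`T` a simplex, `E` its moment ellipsoid), and which is closed under invertible affine maps, free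
sums (so also under pyramids and joins), unconditional sums (so also under direct products), a
stacking operation and movements along chords (so also under Steiner symmetrizations). -/
theorem Vale.Agent.Results.P254.Classes.result (n : ℕ) (K S : Set (Fin n → ℝ)) (hK : Cls n K)
    (hS : Simp S) : iso K ≤ iso S ∧ (iso K = iso S ↔ Simp K) :=
  Cls.top hK hS
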