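import Vale.Agent.P254.Glob.Main
import Vale.Agent.P254.Bdl.B1
import Vale.Agent.P254.Bdl.B2
import Vale.Agent.P254.Bdl.B3
import Vale.Agent.P254.Bdl.B4
import Vale.Agent.P254.Bdl.B5
import Vale.Agent.P254.Bdl.B6
import Vale.Agent.P254.Bdl.B7
import Vale.Agent.P254.Bdl.B8
import Vale.Agent.P254.Bdl.B9
import Vale.Agent.P254.Bdl.B10
import Vale.Agent.P254.Bdl.B11
import Vale.Agent.P254.Bdl.B12
import Vale.Agent.P254.Bdl.B13
import Vale.Agent.P254.Bdl.B14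
import Vale.Agent.P254.Bdl.B15
import Vale.Agent.P254.Bdl.B16
import Vale.Agent.P254.Bdl.B17
import Vale.Agent.P254.Bdl.B18
import Vale.Agent.P254.Bdl.B19
import Vale.Agent.P254.Bdl.B20

open MeasureTheory Set Matrix Vale.Agent.P254 Vale.Agent.P254.Unc

/-- For every convex body `K` in `ℝⁿ` and every `n`-simplex `S`:
near-sharp slicing `L_K ≤ exp (0.19 (n+1)/n) L_S`, `L_K ≤ exp (-0.81) < 0.445`, and the exact
inequality `L_K ≤ L_S`, with equality iff `K` is a simplex, as soon as `K` has one of the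
properties: (1) `K` has `n` affine hyperplane symmetries `x ↦ x - (wᵢ · x - cᵢ) aᵢ` with linearly
independent directions `aᵢ`, or `n - 1` which moreover form a connected graph; (2) `K` fills nearly
all of an affine image of an unconditional convex body; (3), (4) `K` is close to a simplex, in
volume or in Banach-Mazur distance; (5) `K` is a polytope with at most `n + 2` vertices; (6) `n = 3`
and `K` is invariant under an affine map `x ↦ M x + c` with `det M > 0`, `M² ≠ 1` or `M⁴ ≠ 1`. -/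
theorem Vale.Agent.Results.P254.Global.result (n : ℕ) (hn : 1 ≤ n) (K S : Set (Fin n → ℝ))
    (hK : IsConvexBody K) (hS : IsSimplex S) :
    isoConst K ≤ Real.exp (19 / 100 * (((n : ℝ) + 1) / n)) * isoConst S ∧
    isoConst K ≤ Real.exp (-(81 / 100)) ∧
    ((∃ (m : ℕ) (a w : Fin m → Fin n → ℝ) (c : Fin m → ℝ), LinearIndependent ℝ a ∧
          (∀ i, w i ⬝ᵥ a i = 2) ∧ (∀ i, ∀ x ∈ K, x - (w i ⬝ᵥ x - c i) • a i ∈ K) ∧
          (m = n ∨ (2 ≤ n ∧ m + 1 = n ∧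
            ∀ i j, Relation.ReflTransGen (fun i j => w i ⬝ᵥ a j ≠ 0) i j))) ∨
      (∃ (A : Matrix (Fin n) (Fin n) ℝ) (b : Fin n → ℝ) (U : Set (Fin n → ℝ)), A.det ≠ 0 ∧
        IsConvexBody U ∧ Uncond U ∧ K ⊆ (fun x => A *ᵥ x + b) '' U ∧
        min (79 / 80) ((1 - 1 / 10 ^ 24) ^ n) *
          (volume ((fun x => A *ᵥ x + b) '' U)).toReal ≤ (volume K).toReal) ∨
      (∃ T : Set (Fin n → ℝ), IsSimplex T ∧ K ⊆ T ∧
        (1 - 1 / ((n : ℝ) + 2) ^ (4 * n)) * (volume T).toReal ≤ (volume K).toReal) ∨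
      (∃ (T : Set (Fin n → ℝ)) (z : Fin n → ℝ) (r : ℝ), 0 < r ∧ r ≤ 1 + 1 / ((n : ℝ) + 2) ^ 5 ∧
        IsSimplex T ∧ T ⊆ K ∧ K ⊆ (fun x => z + r • x) '' T) ∨
      (∃ v : Fin (n + 2) → Fin n → ℝ, K = convexHull ℝ (range v)) ∨
      (n = 3 ∧ ∃ (M : Matrix (Fin n) (Fin n) ℝ) (c : Fin n → ℝ), (fun x => M *ᵥ x + c) '' K = K ∧
        ((0 < M.det ∧ M * M ≠ 1) ∨ M * M * (M * M) ≠ 1)) →
      isoConst K ≤ isoConst S ∧ (isoConst K = isoConst S ↔ IsSimplex K)) :=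
  ⟨(X.Chain.final_all hn hK hS).1, (X.Chain.final_all hn hK hS).2, Glob.exact hn hK hS⟩
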