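import Vale.Agent.P254.Bdl.B2
import Vale.Agent.P254.Bdl.B4
import Vale.Agent.P254.Bdl.B5
import Vale.Agent.P254.Bdl.B7
import Vale.Agent.P254.Bdl.B10
import Vale.Agent.P254.Bdl.B13
import Vale.Agent.P254.Bdl.B17
import Vale.Agent.P254.Bdl.B18
import Vale.Agent.P254.Bdl.B20
import Vale.Agent.P254.Refl.Good
import Vale.Agent.P254.Fib.IrrTop

open MeasureTheory Set Matrix Vale.Agent.P254 Vale.Agent.P254.Unc

/-- The strong isotropic constant conjecture, with its equality case, in every dimension `n`: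
(1) for every convex body `K` in `ℝⁿ` which has `n` affine hyperplane symmetries
`x ↦ x - (wᵢ · x - cᵢ) aᵢ` with linearly independent directions `aᵢ`, or `n - 1` such symmetries
whose graph is connected (one free direction);
(2) for the convex bodies which nearly fill an affine image `U'` of an unconditional body or are at
Banach-Mazur distance at most `1 / (1 - 10^(-24))` from it, with strict inequality if `n ≥ 2`, and
(3) `L_K ≤ √((n+1)/(8(n+2)))` for all affine images `K` of unconditional bodies. -/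
theorem Vale.Agent.Results.P254.Reflections.result (n : ℕ) (hn : 1 ≤ n) (K S : Set (Fin n → ℝ))
    (hK : IsConvexBody K) (hS : IsSimplex S) :
    ((∃ (m : ℕ) (a w : Fin m → Fin n → ℝ) (c : Fin m → ℝ), LinearIndependent ℝ a ∧
        (∀ i, w i ⬝ᵥ a i = 2) ∧ (∀ i, ∀ x ∈ K, x - (w i ⬝ᵥ x - c i) • a i ∈ K) ∧
        (m = n ∨
          m + 1 = n ∧ ∀ i j, Relation.ReflTransGen (fun i j => w i ⬝ᵥ a j ≠ 0) i j)) →
      isoConst K ≤ isoConst S ∧ (isoConst K = isoConst S ↔ IsSimplex K)) ∧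
    ((∃ (A : Matrix (Fin n) (Fin n) ℝ) (b : Fin n → ℝ) (U : Set (Fin n → ℝ)), A.det ≠ 0 ∧
        IsConvexBody U ∧ Uncond U ∧
        ((K ⊆ (fun x => A *ᵥ x + b) '' U ∧
            min (79 / 80) ((1 - 1 / 10 ^ 24) ^ n) *
              (volume ((fun x => A *ᵥ x + b) '' U)).toReal ≤ (volume K).toReal) ∨
          (∃ (z : Fin n → ℝ) (r : ℝ), 0 < r ∧ r * (1 - 1 / 10 ^ 24) ≤ 1 ∧
            (fun x => A *ᵥ x + b) '' U ⊆ K ∧
            K ⊆ (fun x => z + r • x) '' ((fun x => A *ᵥ x + b) '' U)))) →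
      isoConst K ≤ isoConst S ∧ (isoConst K = isoConst S ↔ IsSimplex K) ∧
        (2 ≤ n → isoConst K < isoConst S)) ∧
    ((∃ (A : Matrix (Fin n) (Fin n) ℝ) (b : Fin n → ℝ) (U : Set (Fin n → ℝ)), A.det ≠ 0 ∧
        IsConvexBody U ∧ Uncond U ∧ K = (fun x => A *ᵥ x + b) '' U) →
      isoConst K ≤ Real.sqrt (((n : ℝ) + 1) / (8 * ((n : ℝ) + 2)))) := by
  refine ⟨?_, EX.top_bm (uncr_all n) hn hK hS, top_uncond (uncr_all n) hn⟩
  rintro ⟨m, a, w, c, ha, hw, hR, rfl | ⟨rfl, hC⟩⟩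
  · exact Refl.top hn hK hS ha hw hR
  · rcases Nat.eq_zero_or_pos m with rfl | hm
    · have h1 := isSimplex_of_dim_one hK
      rw [isoConst_simplex h1, isoConst_simplex hS]
      exact ⟨le_rfl, fun _ => h1, fun _ => rfl⟩
    · exact (Fib.irr_aff (m + 1) hn (Or.inr ⟨by rw [Fintype.card_fin], by rwa [Fintype.card_fin]⟩)
        a w c ha hw hC hK hR).iso hS
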